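import Vale.Agent.P265.H336.AS

/-!
Germs of Alexander-Spanier cochains.  `Gz A n` is the space of the cochains (functions of `n`
points of the ambient space `X`) which vanish on all tuples of `X` that are near a point of `A`.
-/

open Set Filter Topology Matrix

namespace Vale.Agent.P216.Germ

open Vale.Agent.P265.AS

variable {X Y : Type} [TopologicalSpace X] [TopologicalSpace Y] {k : Type} [Field k]

/-- The cochain `f` vanishes on all tuples near `a`. -/
def Van {n : ℕ} (f : (Fin n → X) → k) (a : X) : Prop :=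
  ∃ U ∈ 𝓝 a, ∀ x : Fin n → X, (∀ i, x i ∈ U) → f x = 0

theorem isOpen_van {n : ℕ} (f : (Fin n → X) → k) : IsOpen {a | Van f a} := by
  rw [isOpen_iff_mem_nhds]
  rintro a ⟨U, hU, h⟩
  obtain ⟨V, hVU, hV, haV⟩ := mem_nhds_iff.1 hU
  filter_upwards [hV.mem_nhds haV] with b hb
  exact ⟨V, hV.mem_nhds hb, fun x hx => h x fun i => hVU (hx i)⟩

theorem Van.add {n : ℕ} {f g : (Fin n → X) → k} {a : X} (hf : Van f a) (hg : Van g a) :
    Van (f + g) a := by
  obtain ⟨U, hU, h⟩ := hf
  obtain ⟨V, hV, h'⟩ := hg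
  refine ⟨U ∩ V, inter_mem hU hV, fun x hx => ?_⟩
  rw [Pi.add_apply, h x fun i => (hx i).1, h' x fun i => (hx i).2, add_zero]

theorem Van.smul {n : ℕ} {f : (Fin n → X) → k} {a : X} (c : k) (hf : Van f a) :
    Van (c • f) a := by
  obtain ⟨U, hU, h⟩ := hf
  exact ⟨U, hU, fun x hx => by rw [Pi.smul_apply, h x hx, smul_zero]⟩

theorem van_zero {n : ℕ} (a : X) : Van (0 : (Fin n → X) → k) a :=
  ⟨univ, univ_mem, fun _ _ => rfl⟩

/-- The cochain `g` is locally determined by `f`: if `f` vanishes on the tuples of a set then so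
does `g`. -/
theorem Van.of_local {n m : ℕ} {f : (Fin n → X) → k} {g : (Fin m → X) → k} {a : X}
    (hf : Van f a)
    (h : ∀ U : Set X, (∀ x : Fin n → X, (∀ i, x i ∈ U) → f x = 0) →
      ∀ x : Fin m → X, (∀ i, x i ∈ U) → g x = 0) : Van g a := by
  obtain ⟨U, hU, h'⟩ := hf
  exact ⟨U, hU, h U h'⟩

theorem Van.d {n : ℕ} {f : (Fin n → X) → k} {a : X} (hf : Van f a) : Van (d f) a :=
  hf.of_local fun _ h x hx => d_eq_zero fun y hy => h y fun i => by
    obtain ⟨j, hj⟩ := hy i
    rw [hj]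
    exact hx j

theorem Van.pb {n : ℕ} {f : (Fin n → Y) → k} {φ : X → Y} {a : X} (hφ : ContinuousAt φ a)
    (hf : Van f (φ a)) : Van (pb φ f) a := by
  obtain ⟨U, hU, h⟩ := hf
  exact ⟨φ ⁻¹' U, hφ hU, fun x hx => h _ hx⟩

/-- The cochains vanishing near `A`. -/
def Gz (k : Type) [Field k] (A : Set X) (n : ℕ) : Submodule k ((Fin n → X) → k) where
  carrier := {f | ∀ a ∈ A, Van f a}
  add_mem' := fun hf hg a ha => (hf a ha).add (hg a ha)
  zero_mem' := fun a _ => van_zero a
  smul_mem' := fun c _ hf a ha => (hf a ha).smul c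

theorem mem_gz {A : Set X} {n : ℕ} {f : (Fin n → X) → k} : f ∈ Gz k A n ↔ ∀ a ∈ A, Van f a :=
  Iff.rfl

theorem mem_gz_iff {A : Set X} {n : ℕ} {f : (Fin n → X) → k} :
    f ∈ Gz k A n ↔ A ⊆ {a | Van f a} := Iff.rfl

theorem gz_anti {A B : Set X} (h : A ⊆ B) (n : ℕ) : Gz k B n ≤ Gz k A n :=
  fun _ hf a ha => hf a (h ha)

theorem gz_empty (n : ℕ) : Gz k (∅ : Set X) n = ⊤ := by
  ext f
  simp [mem_gz]

theorem gz_union (A B : Set X) (n : ℕ) : Gz k (A ∪ B) n = Gz k A n ⊓ Gz k B n := by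
  ext f
  rw [Submodule.mem_inf, mem_gz_iff, mem_gz_iff, mem_gz_iff, union_subset_iff]

theorem gz_iUnion {ι : Sort*} (A : ι → Set X) (n : ℕ) :
    Gz k (⋃ i, A i) n = ⨅ i, Gz k (A i) n := by
  ext f
  simp only [Submodule.mem_iInf, mem_gz_iff, iUnion_subset_iff]

theorem d_mem_gz {A : Set X} {n : ℕ} {f : (Fin n → X) → k} (hf : f ∈ Gz k A n) :
    d f ∈ Gz k A (n + 1) := fun a ha => (hf a ha).d

theorem pb_mem_gz {A : Set X} {B : Set Y} {φ : X → Y} (hφ : ∀ a ∈ A, ContinuousAt φ a)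
    (hAB : MapsTo φ A B) {n : ℕ} {f : (Fin n → Y) → k} (hf : f ∈ Gz k B n) :
    pb φ f ∈ Gz k A n := fun a ha => (hf (φ a) (hAB ha)).pb (hφ a ha)

/-- Continuity: a cochain vanishing near a compact filtered intersection vanishes near one of the
sets. -/
theorem exists_mem_gz {ι : Type*} [Nonempty ι] {A : ι → Set X} (hA : ∀ i, IsCompact (A i))
    (hcl : ∀ i, IsClosed (A i)) (hdir : Directed (· ⊇ ·) A) {n : ℕ} {f : (Fin n → X) → k}
    (hf : f ∈ Gz k (⋂ i, A i) n) : ∃ i, f ∈ Gz k (A i) n := by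
  obtain ⟨i, hi⟩ := exists_subset_nhds_of_isCompact' hdir hA hcl
    (U := {a | Van f a}) fun a ha => (isOpen_van f).mem_nhds (hf a ha)
  exact ⟨i, hi⟩

/-- Separation with a finite group. -/
theorem exists_sep {Γ : Type*} [Group Γ] [Finite Γ] [MulAction Γ X] [ContinuousConstSMul Γ X]
    [NormalSpace X] {S T : Set X} (hS : IsClosed S) (hT : IsClosed T) (hST : Disjoint S T)
    (hT' : ∀ (γ : Γ), ∀ x ∈ T, γ • x ∈ T) :
    ∃ D : Set X, IsOpen D ∧ S ⊆ D ∧ Disjoint (closure D) T ∧ ∀ (γ : Γ) (x : X), γ • x ∈ D ↔ x ∈ D := by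
  obtain ⟨D₀, hD₀, hSD, hcl⟩ := normal_exists_closure_subset hS hT.isOpen_compl
    (fun x hx => fun hxT => hST.le_bot ⟨hx, hxT⟩)
  refine ⟨⋃ γ : Γ, (fun x => γ • x) ⁻¹' D₀, isOpen_iUnion fun γ =>
    hD₀.preimage (continuous_const_smul γ), ?_, ?_, ?_⟩
  · exact fun x hx => mem_iUnion.2 ⟨1, by simpa using hSD hx⟩
  · rw [closure_iUnion_of_finite, Set.disjoint_left]
    intro x hx hxT
    obtain ⟨γ, hγ⟩ := mem_iUnion.1 hx
    have h1 : γ • x ∈ closure D₀ :=
      (closure_minimal (preimage_mono subset_closure)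
        (isClosed_closure.preimage (continuous_const_smul γ))) hγ
    exact hcl h1 (hT' γ x hxT)
  · intro γ x
    simp only [mem_iUnion, mem_preimage]
    constructor
    · rintro ⟨γ', h⟩
      exact ⟨γ' * γ, by rwa [mul_smul]⟩
    · rintro ⟨γ', h⟩
      exact ⟨γ' * γ⁻¹, by rwa [mul_smul, inv_smul_smul]⟩

/-- Multiplication of a cochain by the indicator function of `D` at the first vertex. -/
noncomputable def cut (k : Type) [Field k] (D : Set X) (n : ℕ) :
    ((Fin (n + 1) → X) → k) →ₗ[k] ((Fin (n + 1) → X) → k) := by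
  classical
  exact
  { toFun := fun f x => if x 0 ∈ D then f x else 0
    map_add' := fun f g => by
      funext x
      by_cases h : x 0 ∈ D <;> simp [h]
    map_smul' := fun c f => by
      funext x
      by_cases h : x 0 ∈ D <;> simp [h] }

theorem cut_of_mem {D : Set X} {n : ℕ} {f : (Fin (n + 1) → X) → k} {x : Fin (n + 1) → X}
    (h : x 0 ∈ D) : cut k D n f x = f x := if_pos h

theorem cut_of_notMem {D : Set X} {n : ℕ} {f : (Fin (n + 1) → X) → k} {x : Fin (n + 1) → X}
    (h : x 0 ∉ D) : cut k D n f x = 0 := if_neg h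

theorem cut_add_compl (D : Set X) {n : ℕ} (f : (Fin (n + 1) → X) → k) :
    cut k D n f + cut k Dᶜ n f = f := by
  funext x
  by_cases h : x 0 ∈ D
  · rw [Pi.add_apply, cut_of_mem h, cut_of_notMem (by simpa using h), add_zero]
  · rw [Pi.add_apply, cut_of_notMem h, cut_of_mem (by simpa using h), zero_add]

theorem cut_van_of_van {D : Set X} {n : ℕ} {f : (Fin (n + 1) → X) → k} {a : X} (h : Van f a) :
    Van (cut k D n f) a :=
  h.of_local fun U hU x hx => by
    by_cases hD : x 0 ∈ D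
    · rw [cut_of_mem hD, hU x hx]
    · exact cut_of_notMem hD

theorem cut_van_of_notMem_closure {D : Set X} {n : ℕ} {f : (Fin (n + 1) → X) → k} {a : X}
    (h : a ∉ closure D) : Van (cut k D n f) a :=
  ⟨(closure D)ᶜ, isClosed_closure.isOpen_compl.mem_nhds h, fun x hx =>
    cut_of_notMem fun hD => hx 0 (subset_closure hD)⟩

theorem cut_compl_van_of_mem_interior {D : Set X} {n : ℕ} {f : (Fin (n + 1) → X) → k} {a : X}
    (h : a ∈ interior D) : Van (cut k Dᶜ n f) a :=
  ⟨interior D, isOpen_interior.mem_nhds h, fun x hx =>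
    cut_of_notMem fun hD => hD (interior_subset (hx 0))⟩

theorem cut_mem_gz {A D : Set X} {n : ℕ} {f : (Fin (n + 1) → X) → k}
    (hf : f ∈ Gz k A (n + 1)) : cut k D n f ∈ Gz k A (n + 1) :=
  fun a ha => cut_van_of_van (hf a ha)

theorem cut_comp {D : Set X} {g : X → X} (hg : ∀ x, g x ∈ D ↔ x ∈ D) {n : ℕ}
    (f : (Fin (n + 1) → X) → k) : cut k D n (pb g f) = pb g (cut k D n f) := by
  funext x
  by_cases h : x 0 ∈ D
  · rw [cut_of_mem h, pb_apply, pb_apply, cut_of_mem (by simpa using (hg _).2 h)]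
  · rw [cut_of_notMem h, pb_apply, cut_of_notMem (by simpa using (hg _).not.2 h)]

/-- The commutator of the coboundary and of the multiplication by an indicator function vanishes
off the boundary. -/
theorem d_cut_sub {D : Set X} {n : ℕ} (f : (Fin (n + 1) → X) → k) {a : X}
    (h : a ∉ frontier D ∨ Van f a) : Van (d (cut k D n f) - cut k D (n + 1) (d f)) a := by
  rcases h with h | h
  · have h' : a ∈ interior D ∨ a ∈ interior Dᶜ := by
      by_contra hc
      push Not at hc
      apply h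
      rw [frontier_eq_closure_inter_closure]
      constructor
      · have := hc.2
        rw [interior_compl] at this
        simpa using this
      · have := hc.1
        rw [closure_compl]
        exact this
    rcases h' with h' | h'
    · refine ⟨interior D, isOpen_interior.mem_nhds h', fun x hx => ?_⟩
      have hx' : ∀ i, x i ∈ D := fun i => interior_subset (hx i)
      rw [Pi.sub_apply, cut_of_mem (hx' 0), sub_eq_zero]
      apply d_congr
      intro y hy
      obtain ⟨j, hj⟩ := hy 0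
      exact cut_of_mem (by rw [hj]; exact hx' j)
    · refine ⟨interior Dᶜ, isOpen_interior.mem_nhds h', fun x hx => ?_⟩
      have hx' : ∀ i, x i ∉ D := fun i => interior_subset (hx i)
      rw [Pi.sub_apply, cut_of_notMem (hx' 0), sub_zero]
      apply d_eq_zero
      intro y hy
      obtain ⟨j, hj⟩ := hy 0
      exact cut_of_notMem (by rw [hj]; exact hx' j)
  · have h1 : Van (d (cut k D n f)) a := (cut_van_of_van h).d
    have h2 : Van (cut k D (n + 1) (d f)) a := cut_van_of_van h.d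
    have := h1.add (h2.smul (-1))
    simpa [sub_eq_add_neg] using this

/-- Mayer-Vietoris at the level of cochains, with a finite group. -/
theorem exists_cut {Γ : Type*} [Group Γ] [Finite Γ] [MulAction Γ X] [ContinuousConstSMul Γ X]
    [NormalSpace X] {A B : Set X} (hA : IsClosed A) (hB : IsClosed B)
    (hB' : ∀ (γ : Γ), ∀ x ∈ B, γ • x ∈ B) {n : ℕ} {f : (Fin (n + 1) → X) → k}
    (hf : f ∈ Gz k (A ∩ B) (n + 1)) (hfΓ : ∀ (γ : Γ) (a : X), Van f (γ • a) → Van f a) :
    ∃ D : Set X, IsOpen D ∧ (∀ (γ : Γ) (x : X), γ • x ∈ D ↔ x ∈ D) ∧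
      cut k Dᶜ n f ∈ Gz k A (n + 1) ∧ cut k D n f ∈ Gz k B (n + 1) := by
  have hW := isOpen_van f
  obtain ⟨D, hD, hSD, hDT, hΓ⟩ := exists_sep (Γ := Γ) (S := A \ {a | Van f a})
    (T := B \ {a | Van f a}) (hA.sdiff hW) (hB.sdiff hW)
    (Set.disjoint_left.2 fun x hx hx' => hx.2 (hf x ⟨hx.1, hx'.1⟩))
    (fun γ x hx => ⟨hB' γ x hx.1, fun h => hx.2 (hfΓ γ x h)⟩)
  refine ⟨D, hD, hΓ, fun a ha => ?_, fun a ha => ?_⟩
  · by_cases h : Van f a
    · exact cut_van_of_van h
    · exact cut_compl_van_of_mem_interior (by rw [hD.interior_eq]; exact hSD ⟨ha, h⟩)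
  · by_cases h : Van f a
    · exact cut_van_of_van h
    · exact cut_van_of_notMem_closure fun hc => Set.disjoint_left.1 hDT hc ⟨ha, h⟩

theorem gz_inter [NormalSpace X] {A B : Set X} (hA : IsClosed A) (hB : IsClosed B) (n : ℕ) :
    Gz k (A ∩ B) (n + 1) = Gz k A (n + 1) ⊔ Gz k B (n + 1) := by
  apply le_antisymm
  · intro f hf
    let _ : MulAction Unit X :=
      { smul := fun _ x => x
        one_smul := fun _ => rfl
        mul_smul := fun _ _ _ => rfl }
    have : ContinuousConstSMul Unit X := ⟨fun _ => continuous_id⟩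
    obtain ⟨D, -, -, h1, h2⟩ := exists_cut (Γ := Unit) hA hB (fun _ x hx => hx) hf
      fun _ _ h => h
    rw [← cut_add_compl D f, add_comm (cut k D n f)]
    exact Submodule.add_mem_sup h1 h2
  · exact sup_le (gz_anti inter_subset_left _) (gz_anti inter_subset_right _)

end Vale.Agent.P216.Germ
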