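import Vale.Agent.P216.Germ.Htpy
import Vale.Agent.P216.AS.Cx

/-!
Cohomology of germs of Alexander-Spanier cochains with a twist `(τ, ε)`: the cochains satisfy
`f (τ x₀, …, τ xₙ) = ε f (x₀, …, xₙ)`.
`HG T B A n` is the cohomology of the pair `(B, A)` in degree `n`.
-/

open Set Filter Topology Matrix

namespace Vale.Agent.P216.Germ

open Vale.Agent.P265.AS Vale.Agent.P216.AS

variable {X Y : Type} [TopologicalSpace X] [TopologicalSpace Y] {k : Type} [Field k]

/-- A continuous involution `τ` and a scalar `ε`. -/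
structure Tw (X k : Type) [TopologicalSpace X] [Field k] where
  /-- the involution -/
  τ : X → X
  /-- the character -/
  ε : k
  inv : ∀ x, τ (τ x) = x
  cont : Continuous τ

namespace Tw

/-- No twist. -/
def plain (X k : Type) [TopologicalSpace X] [Field k] : Tw X k where
  τ := id
  ε := 1
  inv _ := rfl
  cont := continuous_id

variable (T : Tw X k)

/-- The twisted cochains on `n` points. -/
def E (n : ℕ) : Submodule k ((Fin n → X) → k) where
  carrier := {f | ∀ x, f (T.τ ∘ x) = T.ε * f x}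
  add_mem' {f g} hf hg x := by
    simp only [Pi.add_apply]
    rw [hf x, hg x]
    ring
  zero_mem' x := by simp
  smul_mem' c f hf x := by
    simp only [Pi.smul_apply, smul_eq_mul]
    rw [hf x]
    ring

variable {T}

theorem mem_E {n : ℕ} {f : (Fin n → X) → k} : f ∈ T.E n ↔ ∀ x, f (T.τ ∘ x) = T.ε * f x := Iff.rfl

theorem mem_E_iff {n : ℕ} {f : (Fin n → X) → k} : f ∈ T.E n ↔ pb T.τ f = T.ε • f :=
  ⟨fun h => funext h, fun h x => congrFun h x⟩

theorem mem_E_plain {n : ℕ} (f : (Fin n → X) → k) : f ∈ (plain X k).E n := fun x => by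
  change f (id ∘ x) = 1 * f x
  rw [one_mul]
  rfl

theorem d_mem_E {n : ℕ} {f : (Fin n → X) → k} (hf : f ∈ T.E n) : d f ∈ T.E (n + 1) := by
  rw [mem_E_iff] at hf ⊢
  rw [← d_pb, hf, d_smul]

variable (T)

/-- The complex of twisted cochains. -/
def amb : Amb k where
  K n := T.E (n + 1)
  d n := (dL X k (n + 1)).restrict fun _ hx => d_mem_E hx
  d_d n x := Subtype.ext (d_d x.1)

@[simp] theorem amb_d_coe {n : ℕ} (x : T.amb.K n) :
    Subtype.val (p := (· ∈ T.E (n + 2))) (T.amb.d n x) = d x.1 := rfl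

/-- The set is invariant. -/
def Inv (A : Set X) : Prop := ∀ x ∈ A, T.τ x ∈ A

variable {T}

theorem Inv.iff {A : Set X} (h : T.Inv A) (x : X) : T.τ x ∈ A ↔ x ∈ A :=
  ⟨fun hx => by simpa [T.inv] using h _ hx, h x⟩

theorem Inv.inter {A B : Set X} (h : T.Inv A) (h' : T.Inv B) : T.Inv (A ∩ B) :=
  fun x hx => ⟨h x hx.1, h' x hx.2⟩

theorem Inv.union {A B : Set X} (h : T.Inv A) (h' : T.Inv B) : T.Inv (A ∪ B) :=
  fun x hx => hx.elim (fun hx => Or.inl (h x hx)) fun hx => Or.inr (h' x hx)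

theorem Inv.compl {A : Set X} (h : T.Inv A) : T.Inv Aᶜ := fun x hx hx' => hx ((h.iff x).1 hx')

theorem inv_empty : T.Inv ∅ := fun _ h => h.elim

theorem inv_univ : T.Inv univ := fun _ _ => trivial

theorem inv_plain (A : Set X) : (plain X k).Inv A := fun _ h => h

end Tw

variable (T : Tw X k)

/-- The subcomplex of the cochains vanishing near `A`. -/
def GZ (A : Set X) : Sub T.amb where
  S n := (Gz k A (n + 1)).comap (T.E (n + 1)).subtype
  d_mem {_ x} hx := d_mem_gz (f := x.1) hx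

variable {T}

theorem mem_GZ {A : Set X} {n : ℕ} {f : T.amb.K n} : f ∈ GZ T A n ↔ f.1 ∈ Gz k A (n + 1) := Iff.rfl

theorem GZ_anti {A B : Set X} (h : A ⊆ B) : GZ T B ≤ GZ T A := fun n _ hf => gz_anti h (n + 1) hf

theorem GZ_empty : GZ T (∅ : Set X) = ⊤ :=
  le_antisymm le_top fun n x _ => by
    rw [mem_GZ, gz_empty]
    trivial

theorem GZ_union (A B : Set X) : GZ T (A ∪ B) = GZ T A ⊓ GZ T B := by
  apply le_antisymm
  · exact le_inf (GZ_anti subset_union_left) (GZ_anti subset_union_right)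
  · intro n x hx
    rw [mem_GZ, gz_union]
    exact hx

/-- An invariant version of the separation lemma. -/
theorem exists_cut_tw [NormalSpace X] {A B : Set X} (hA : IsClosed A) (hB : IsClosed B)
    (hB' : T.Inv B) {n : ℕ} {f : T.amb.K n} (hf : f ∈ GZ T (A ∩ B) n) :
    ∃ D : Set X, IsOpen D ∧ (∀ x, T.τ x ∈ D ↔ x ∈ D) ∧
      cut k Dᶜ n f.1 ∈ Gz k A (n + 1) ∧ cut k D n f.1 ∈ Gz k B (n + 1) := by
  have hW := isOpen_van f.1
  obtain ⟨D₀, hD₀, hSD, hcl⟩ := normal_exists_closure_subset (s := A \ {a | Van f.1 a})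
    (t := (B \ {a | Van f.1 a})ᶜ) (hA.sdiff hW) (hB.sdiff hW).isOpen_compl
    (fun x hx hx' => hx.2 (hf x ⟨hx.1, hx'.1⟩))
  have hτ : Continuous T.τ := T.cont
  have hV : ∀ a, Van f.1 (T.τ a) → Van f.1 a := by
    intro a ha
    have h1 : Van (pb T.τ f.1) a := ha.pb hτ.continuousAt
    rw [Tw.mem_E_iff.1 f.2] at h1
    by_cases hε : T.ε = 0
    · have h2 := Tw.mem_E_iff.1 f.2
      have h3 : f.1 = 0 := by
        funext x
        have h4 := f.2 (T.τ ∘ x)
        rw [hε, zero_mul, show T.τ ∘ T.τ ∘ x = x from funext fun i => T.inv _] at h4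
        exact h4
      rw [h3]
      exact van_zero a
    · have h2 := h1.smul (T.ε)⁻¹
      rwa [smul_smul, inv_mul_cancel₀ hε, one_smul] at h2
  refine ⟨D₀ ∪ T.τ ⁻¹' D₀, hD₀.union (hD₀.preimage hτ), fun x => ?_, fun a ha => ?_,
    fun a ha => ?_⟩
  · simp only [mem_union, mem_preimage, T.inv]
    exact or_comm
  · by_cases h : Van f.1 a
    · exact cut_van_of_van h
    · apply cut_compl_van_of_mem_interior
      rw [(hD₀.union (hD₀.preimage hτ)).interior_eq]
      exact Or.inl (hSD ⟨ha, h⟩)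
  · by_cases h : Van f.1 a
    · exact cut_van_of_van h
    · apply cut_van_of_notMem_closure
      intro hc
      rw [closure_union] at hc
      rcases hc with hc | hc
      · exact hcl hc ⟨ha, h⟩
      · have h1 : T.τ a ∈ closure D₀ :=
          (closure_minimal (preimage_mono subset_closure)
            (isClosed_closure.preimage hτ)) hc
        exact hcl h1 ⟨hB' a ha, fun h' => h (hV a h')⟩

theorem cut_mem_E {D : Set X} (hD : ∀ x, T.τ x ∈ D ↔ x ∈ D) {n : ℕ} {f : (Fin (n + 1) → X) → k}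
    (hf : f ∈ T.E (n + 1)) : cut k D n f ∈ T.E (n + 1) := by
  rw [Tw.mem_E_iff] at hf ⊢
  rw [← cut_comp hD, hf, map_smul]

/-- Mayer-Vietoris on the level of cochains. -/
theorem GZ_inter [NormalSpace X] {A B : Set X} (hA : IsClosed A) (hB : IsClosed B)
    (hB' : T.Inv B) : GZ T (A ∩ B) = GZ T A ⊔ GZ T B := by
  apply le_antisymm
  · intro n f hf
    obtain ⟨D, -, hD, h1, h2⟩ := exists_cut_tw hA hB hB' hf
    have hD' : ∀ x, T.τ x ∈ Dᶜ ↔ x ∈ Dᶜ := fun x => not_congr (hD x)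
    rw [Sub.sup_apply, Submodule.mem_sup]
    exact ⟨⟨_, cut_mem_E hD' f.2⟩, h1, ⟨_, cut_mem_E hD f.2⟩, h2,
      Subtype.ext ((add_comm _ _).trans (cut_add_compl D f.1))⟩
  · exact sup_le (GZ_anti inter_subset_left) (GZ_anti inter_subset_right)

variable (T)

/-- The cohomology of the pair `(B, A)`, where `A ⊆ B`. -/
abbrev HG (B A : Set X) (n : ℕ) : Type := H (GZ T A) (GZ T B) n

variable {T}

/-- Restriction. -/
def res {B A B' A' : Set X} (hB : B' ⊆ B) (hA : A' ⊆ A) (n : ℕ) :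
    HG T B A n →ₗ[k] HG T B' A' n :=
  Hinc (GZ_anti hA) (GZ_anti hB) n

@[simp] theorem res_mk {B A B' A' : Set X} (hB : B' ⊆ B) (hA : A' ⊆ A) {n : ℕ} {x : T.amb.K n}
    (hx : x ∈ Zc (GZ T A) (GZ T B) n) :
    res hB hA n (H.mk x hx) = H.mk x (Zc_mono (GZ_anti hA) (GZ_anti hB) n hx) := rfl

theorem res_res {B A B' A' B'' A'' : Set X} (hB : B' ⊆ B) (hA : A' ⊆ A) (hB' : B'' ⊆ B')
    (hA' : A'' ⊆ A') {n : ℕ} (x : HG T B A n) :
    res hB' hA' n (res hB hA n x) = res (hB'.trans hB) (hA'.trans hA) n x :=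
  Hinc_comp (GZ_anti hA) (GZ_anti hB) (GZ_anti hA') (GZ_anti hB') x

theorem res_comp {B A B' A' B'' A'' : Set X} (hB : B' ⊆ B) (hA : A' ⊆ A) (hB' : B'' ⊆ B')
    (hA' : A'' ⊆ A') (n : ℕ) :
    (res hB' hA' n : HG T B' A' n →ₗ[k] _) ∘ₗ res hB hA n =
      res (hB'.trans hB) (hA'.trans hA) n :=
  LinearMap.ext fun x => res_res hB hA hB' hA' x

@[simp] theorem res_refl {B A : Set X} (hB : B ⊆ B) (hA : A ⊆ A) {n : ℕ} (x : HG T B A n) :
    res hB hA n x = x := Hinc_refl _ _ x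

/-- Excision for closed sets: if `B = A ∪ N` and `N₀ = A ∩ N` then `H(B, A) → H(N, N₀)` is
bijective. -/
theorem excision [NormalSpace X] {A N B N₀ : Set X} (hA : IsClosed A) (hN : IsClosed N)
    (hA' : T.Inv A) (hB : B = A ∪ N) (hN₀ : N₀ = A ∩ N) (hNB : N ⊆ B) (hNA : N₀ ⊆ A) (n : ℕ) :
    Function.Bijective (res hNB hNA n : HG T B A n →ₗ[k] HG T N N₀ n) := by
  refine Hmap_bijective (IsMor.id_of_le (GZ_anti hNA) (GZ_anti hNB))
    (fun {n x} hx hx' => ?_) (fun {n y} hy => ?_)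
  · rw [hB, GZ_union]
    exact ⟨hx, hx'⟩
  · rw [hN₀, inter_comm, GZ_inter hN hA hA', Sub.sup_apply, Submodule.mem_sup] at hy
    obtain ⟨a, ha, b, hb, rfl⟩ := hy
    exact ⟨b, hb, by simpa using ha⟩

end Vale.Agent.P216.Germ
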