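import Vale.Agent.P216.Germ.Basic

/-!
Homotopy invariance for germs of Alexander-Spanier cochains, on the level of cochains.
-/

open Set Filter Topology Matrix

namespace Vale.Agent.P216.Germ

open Vale.Agent.P265.AS

variable {X Y : Type} [TopologicalSpace X] [TopologicalSpace Y] {k : Type} [Field k]

/-- If `f₀` and `f₁` map a neighbourhood of `a` into a set on which `g` vanishes, then the prism
of `g` vanishes near `a`. -/
theorem van_prism {n : ℕ} {g : (Fin (n + 1) → Y) → k} {f₀ f₁ : X → Y} {a : X}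
    (h : ∃ U : Set Y, (∀ y : Fin (n + 1) → Y, (∀ i, y i ∈ U) → g y = 0) ∧
      ∃ V ∈ 𝓝 a, ∀ x ∈ V, f₀ x ∈ U ∧ f₁ x ∈ U) : Van (prism f₀ f₁ g) a := by
  obtain ⟨U, hU, V, hV, h⟩ := h
  refine ⟨V, hV, fun x hx => prism_eq_zero f₀ f₁ fun y hy => hU y fun i => ?_⟩
  obtain ⟨j, hj | hj⟩ := hy i
  · rw [hj]
    exact (h _ (hx j)).1
  · rw [hj]
    exact (h _ (hx j)).2

/-- Two maps which agree and are continuous at `a`. -/
theorem van_prism_of_eq {n : ℕ} {g : (Fin (n + 1) → Y) → k} {f₀ f₁ : X → Y} {a : X}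
    (h₀ : ContinuousAt f₀ a) (h₁ : ContinuousAt f₁ a) (he : f₀ a = f₁ a)
    (hg : Van g (f₀ a)) : Van (prism f₀ f₁ g) a := by
  obtain ⟨U, hU, h⟩ := hg
  exact van_prism ⟨U, h, f₀ ⁻¹' U ∩ f₁ ⁻¹' U,
    inter_mem (h₀ hU) (h₁ (by rw [← he]; exact hU)), fun x hx => hx⟩

theorem prism_mem_gz_of_eq {A : Set X} {B : Set Y} {f₀ f₁ : X → Y}
    (h₀ : ∀ a ∈ A, ContinuousAt f₀ a) (h₁ : ∀ a ∈ A, ContinuousAt f₁ a)
    (he : ∀ a ∈ A, f₀ a = f₁ a) (hAB : MapsTo f₀ A B) {n : ℕ}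
    {g : (Fin (n + 1) → Y) → k} (hg : g ∈ Gz k B (n + 1)) : prism f₀ f₁ g ∈ Gz k A n :=
  fun a ha => van_prism_of_eq (h₀ a ha) (h₁ a ha) (he a ha) (hg _ (hAB ha))

/-- `h` is continuous on `[0, 1] × A`, as a map on the ambient space. -/
def HCont (h : ℝ → X → Y) (A : Set X) : Prop :=
  ∀ t ∈ Icc (0 : ℝ) 1, ∀ a ∈ A,
    ContinuousWithinAt (fun p : ℝ × X => h p.1 p.2) (Icc (0 : ℝ) 1 ×ˢ univ) (t, a)

theorem HCont.mono {h : ℝ → X → Y} {A B : Set X} (hh : HCont h B) (hAB : A ⊆ B) : HCont h A :=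
  fun t ht a ha => hh t ht a (hAB ha)

theorem HCont.continuousAt {h : ℝ → X → Y} {A : Set X} (hh : HCont h A) {t : ℝ}
    (ht : t ∈ Icc (0 : ℝ) 1) {a : X} (ha : a ∈ A) : ContinuousAt (h t) a := by
  have h1 : ContinuousWithinAt (fun x : X => ((t, x) : ℝ × X)) univ a :=
    (Continuous.prodMk_right t).continuousWithinAt
  have h2 := ContinuousWithinAt.comp (t := Icc (0 : ℝ) 1 ×ˢ univ) (hh t ht a ha) h1
    (fun x _ => ⟨ht, mem_univ _⟩)
  exact (continuousWithinAt_univ _ _).1 h2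

theorem hcont_of_continuous {h : ℝ → X → Y} {A : Set X}
    (hh : Continuous fun p : ℝ × X => h p.1 p.2) : HCont h A :=
  fun _ _ _ _ => hh.continuousWithinAt

/-- The key compactness lemma. -/
theorem exists_step {A : Set X} (hA : IsCompact A) {h : ℝ → X → Y} (hh : HCont h A) {n : ℕ}
    {g : (Fin (n + 1) → Y) → k} (hg : ∀ t ∈ Icc (0 : ℝ) 1, ∀ a ∈ A, Van g (h t a)) :
    ∃ δ > 0, ∀ s ∈ Icc (0 : ℝ) 1, ∀ s' ∈ Icc (0 : ℝ) 1, |s - s'| < δ →
      prism (h s) (h s') g ∈ Gz k A n := by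
  have key : ∃ δ > 0, ∀ p ∈ Icc (0 : ℝ) 1 ×ˢ A, ∀ s ∈ Icc (0 : ℝ) 1, ∀ s' ∈ Icc (0 : ℝ) 1,
      |s - p.1| < δ → |s' - p.1| < δ → Van (prism (h s) (h s') g) p.2 := by
    refine IsCompact.induction_on
      (p := fun S : Set (ℝ × X) => ∃ δ > 0, ∀ p ∈ S, ∀ s ∈ Icc (0 : ℝ) 1, ∀ s' ∈ Icc (0 : ℝ) 1,
      |s - p.1| < δ → |s' - p.1| < δ → Van (prism (h s) (h s') g) p.2)
      (isCompact_Icc.prod hA) ?_ ?_ ?_ ?_
    · exact ⟨1, one_pos, by simp⟩
    · rintro S T hST ⟨δ, hδ, H⟩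
      exact ⟨δ, hδ, fun p hp => H p (hST hp)⟩
    · rintro S T ⟨δ, hδ, H⟩ ⟨δ', hδ', H'⟩
      refine ⟨min δ δ', lt_min hδ hδ', ?_⟩
      rintro p (hp | hp) s hs s' hs' h1 h2
      · exact H p hp s hs s' hs' (lt_of_lt_of_le h1 (min_le_left _ _))
          (lt_of_lt_of_le h2 (min_le_left _ _))
      · exact H' p hp s hs s' hs' (lt_of_lt_of_le h1 (min_le_right _ _))
          (lt_of_lt_of_le h2 (min_le_right _ _))
    · rintro ⟨t, a⟩ ⟨ht, ha⟩
      obtain ⟨U, hU, hgU⟩ := hg t ht a ha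
      have h1 := hh t ht a ha hU
      rw [mem_map, mem_nhdsWithin_iff_exists_mem_nhds_inter] at h1
      obtain ⟨W, hW, hWU⟩ := h1
      obtain ⟨I, hI, V, hV, hIV⟩ := mem_nhds_prod_iff.1 hW
      obtain ⟨δ, hδ, hδI⟩ := Metric.mem_nhds_iff.1 hI
      obtain ⟨V', hV'V, hV', haV'⟩ := mem_nhds_iff.1 hV
      refine ⟨Metric.ball t (δ / 2) ×ˢ V', mem_nhdsWithin_of_mem_nhds
        (prod_mem_nhds (Metric.ball_mem_nhds t (by positivity)) (hV'.mem_nhds haV')),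
        δ / 2, by positivity, ?_⟩
      rintro ⟨t', a'⟩ ⟨ht', ha'⟩ s hs s' hs' h1 h2
      simp only at h1 h2 ha'
      have hb : |t' - t| < δ / 2 := by simpa [Real.dist_eq] using ht'
      refine van_prism ⟨U, hgU, V', hV'.mem_nhds ha', fun x hx => ?_⟩
      have e1 : s ∈ I := hδI (by
        rw [Metric.mem_ball, Real.dist_eq]
        calc |s - t| ≤ |s - t'| + |t' - t| := abs_sub_le _ _ _
          _ < δ := by linarith)
      have e2 : s' ∈ I := hδI (by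
        rw [Metric.mem_ball, Real.dist_eq]
        calc |s' - t| ≤ |s' - t'| + |t' - t| := abs_sub_le _ _ _
          _ < δ := by linarith)
      have m1 : (s, x) ∈ W ∩ (Icc (0 : ℝ) 1 ×ˢ univ) := ⟨hIV ⟨e1, hV'V hx⟩, hs, mem_univ _⟩
      have m2 : (s', x) ∈ W ∩ (Icc (0 : ℝ) 1 ×ˢ univ) := ⟨hIV ⟨e2, hV'V hx⟩, hs', mem_univ _⟩
      exact ⟨hWU m1, hWU m2⟩
  obtain ⟨δ, hδ, H⟩ := key
  refine ⟨δ, hδ, fun s hs s' hs' hss a ha => H (s', a) ⟨hs', ha⟩ s hs s' hs' hss (by simpa)⟩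

/-- The subdivided prism operator of a homotopy. -/
noncomputable def prisms (k : Type) [Field k] (h : ℝ → X → Y) (N : ℕ) (n : ℕ) :
    ((Fin (n + 1) → Y) → k) →ₗ[k] ((Fin n → X) → k) :=
  ∑ i ∈ Finset.range N, prismL k (h ((i : ℝ) / N)) (h (((i + 1 : ℕ) : ℝ) / N)) n

theorem prisms_apply (h : ℝ → X → Y) (N n : ℕ) (g : (Fin (n + 1) → Y) → k) :
    prisms k h N n g =
      ∑ i ∈ Finset.range N, prism (h ((i : ℝ) / N)) (h (((i + 1 : ℕ) : ℝ) / N)) g := by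
  simp [prisms, prismL, LinearMap.sum_apply]

theorem d_prism' (f₀ f₁ : X → Y) {n : ℕ} (c : (Fin (n + 1) → Y) → k) :
    d (prism f₀ f₁ c) + prism f₀ f₁ (d c) = pb f₁ c - pb f₀ c := by
  funext x
  exact d_prism f₀ f₁ c x

theorem d_sum {n : ℕ} {ι : Type*} (s : Finset ι) (c : ι → (Fin n → X) → k) :
    d (∑ i ∈ s, c i) = ∑ i ∈ s, d (c i) := by
  exact map_sum (dL X k n) c s

/-- The chain homotopy identity. -/
theorem d_prisms (h : ℝ → X → Y) {N : ℕ} (hN : 0 < N) {n : ℕ} (c : (Fin (n + 1) → Y) → k) :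
    d (prisms k h N n c) + prisms k h N (n + 1) (d c) = pb (h 1) c - pb (h 0) c := by
  rw [prisms_apply, prisms_apply, d_sum, ← Finset.sum_add_distrib]
  have h1 : ∀ i ∈ Finset.range N, d (prism (h ((i : ℝ) / N)) (h (((i + 1 : ℕ) : ℝ) / N)) c) +
      prism (h ((i : ℝ) / N)) (h (((i + 1 : ℕ) : ℝ) / N)) (d c) =
      pb (h (((i + 1 : ℕ) : ℝ) / N)) c - pb (h ((i : ℝ) / N)) c := fun i _ => d_prism' _ _ c
  rw [Finset.sum_congr rfl h1, Finset.sum_range_sub (fun i => pb (h ((i : ℝ) / N)) c)]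
  have hN' : (N : ℝ) ≠ 0 := by exact_mod_cast hN.ne'
  rw [div_self hN']
  simp

theorem exists_prisms_mem {A : Set X} (hA : IsCompact A) {h : ℝ → X → Y} (hh : HCont h A)
    {n : ℕ} {g : (Fin (n + 1) → Y) → k}
    (hg : ∀ t ∈ Icc (0 : ℝ) 1, ∀ a ∈ A, Van g (h t a)) :
    ∃ N₀ : ℕ, ∀ N ≥ N₀, prisms k h N n g ∈ Gz k A n := by
  obtain ⟨δ, hδ, H⟩ := exists_step hA hh hg
  obtain ⟨N₀, hN₀⟩ := exists_nat_gt (1 / δ)
  refine ⟨N₀, fun N hN => ?_⟩
  rw [prisms_apply]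
  refine Submodule.sum_mem _ fun i hi => ?_
  have hiN : i < N := Finset.mem_range.1 hi
  have hNpos : (0 : ℝ) < N := by
    have : 0 < N := by omega
    exact_mod_cast this
  have hδN : 1 / (N : ℝ) < δ := by
    have h1 : 1 / δ < N := lt_of_lt_of_le hN₀ (by exact_mod_cast hN)
    rw [div_lt_iff₀ hδ] at h1
    rw [div_lt_iff₀ hNpos]
    linarith
  have hi1 : ((i : ℝ) / N) ∈ Icc (0 : ℝ) 1 := by
    constructor
    · positivity
    · rw [div_le_one hNpos]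
      exact_mod_cast hiN.le
  have hi2 : (((i + 1 : ℕ) : ℝ) / N) ∈ Icc (0 : ℝ) 1 := by
    constructor
    · positivity
    · rw [div_le_one hNpos]
      exact_mod_cast hiN
  refine H _ hi1 _ hi2 ?_
  rw [← sub_div]
  push_cast
  rw [show (i : ℝ) - (i + 1) = -1 by ring, abs_div, abs_neg, abs_one, abs_of_pos hNpos]
  exact hδN

/-- Homotopy invariance on the level of cochains, for pairs: `f` vanishes near `B'`, its
coboundary near `B`; then the pull backs of `f` under the ends of a homotopy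
`(A, A') → (B, B')` differ by the coboundary of a cochain vanishing near `A'`, up to a cochain
vanishing near `A`.  If everything is equivariant then so is the cochain. -/
theorem exists_homotopy {A A' : Set X} {B B' : Set Y} (hA : IsCompact A) (hA' : IsCompact A')
    {h : ℝ → X → Y} (hh : HCont h A) (hh' : HCont h A')
    (hAB : ∀ t ∈ Icc (0 : ℝ) 1, MapsTo (h t) A B)
    (hAB' : ∀ t ∈ Icc (0 : ℝ) 1, MapsTo (h t) A' B') {n : ℕ} {f : (Fin (n + 1) → Y) → k}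
    (hf : f ∈ Gz k B' (n + 1)) (hdf : d f ∈ Gz k B (n + 2)) :
    ∃ N > 0, prisms k h N n f ∈ Gz k A' n ∧ prisms k h N (n + 1) (d f) ∈ Gz k A (n + 1) ∧
      pb (h 1) f - pb (h 0) f - d (prisms k h N n f) ∈ Gz k A (n + 1) := by
  obtain ⟨N₁, h₁⟩ := exists_prisms_mem hA' hh' (g := f)
    fun t ht a ha => hf _ (hAB' t ht ha)
  obtain ⟨N₂, h₂⟩ := exists_prisms_mem hA hh (g := d f)
    fun t ht a ha => hdf _ (hAB t ht ha)
  refine ⟨N₁ + N₂ + 1, by omega, h₁ _ (by omega), h₂ _ (by omega), ?_⟩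
  rw [← d_prisms h (N := N₁ + N₂ + 1) (by omega) f, add_sub_cancel_left]
  exact h₂ _ (by omega)

theorem prisms_comp (h : ℝ → X → Y) (g : X → X) (g' : Y → Y)
    (hg : ∀ t ∈ Icc (0 : ℝ) 1, ∀ x, h t (g x) = g' (h t x)) (N : ℕ) {n : ℕ}
    (c : (Fin (n + 1) → Y) → k) : pb g (prisms k h N n c) = prisms k h N n (pb g' c) := by
  rw [prisms_apply, prisms_apply, map_sum]
  refine Finset.sum_congr rfl fun i hi => ?_
  have hiN : i < N := Finset.mem_range.1 hi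
  have hNpos : (0 : ℝ) < N := by
    have : 0 < N := by omega
    exact_mod_cast this
  have hi1 : ((i : ℝ) / N) ∈ Icc (0 : ℝ) 1 := by
    constructor
    · positivity
    · rw [div_le_one hNpos]
      exact_mod_cast hiN.le
  have hi2 : (((i + 1 : ℕ) : ℝ) / N) ∈ Icc (0 : ℝ) 1 := by
    constructor
    · positivity
    · rw [div_le_one hNpos]
      exact_mod_cast hiN
  funext x
  exact prism_comp _ _ g g' c x (fun j => hg _ hi1 _) (fun j => hg _ hi2 _)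

end Vale.Agent.P216.Germ
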